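import Vale.Agent.P117.AN577.Defs
import Vale.Agent.P117.KC.Loc3

/-! # P117 / AN572 : the stereographic pieces with a given slope index live near their slope cell ([A2], helper572) -/

open MeasureTheory Complex Set
open scoped ENNReal NNReal ContDiff FourierTransform

set_option linter.all false

namespace Vale.Agent.P117.AN572

open Vale.Agent.P122.C2 (Z2)
open Vale.Agent.P122.AN (hz Dat)
open Vale.Agent.P117.K (E3 grd pc sl1 sl2 Ams v1 v2 xist)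
open Vale.Agent.P117.AN577 (hS vS QS sidx pcs Hyp StDat)
open Vale.Agent.P117.KC (abs_coord_le xist0 xist1 xist2 v_near pc_ne integrable_pc norm3_sq)

/-- the third coordinate and the height of the graph -/
theorem height {x0 x1 x2 : ℝ} (h0 : |x0 - 4/9| ≤ 1/100) (h1 : |x1 - 4/9| ≤ 1/100) (h2 : |x2 - 7/9| ≤ 1/100) :
    3/4 ≤ Real.sqrt (1 - x0 ^ 2 - x1 ^ 2) ∧
    |x2 - Real.sqrt (1 - x0 ^ 2 - x1 ^ 2)| ≤ 2/3 * |x0 ^ 2 + x1 ^ 2 + x2 ^ 2 - 1| := by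
  rw [abs_le] at h0 h1 h2
  have hh : 3/4 ≤ Real.sqrt (1 - x0 ^ 2 - x1 ^ 2) := by
    apply Real.le_sqrt_of_sq_le
    nlinarith
  refine ⟨hh, ?_⟩
  have hsq : Real.sqrt (1 - x0 ^ 2 - x1 ^ 2) ^ 2 = 1 - x0 ^ 2 - x1 ^ 2 := Real.sq_sqrt (by nlinarith)
  set y := Real.sqrt (1 - x0 ^ 2 - x1 ^ 2) with hy
  have e : x0 ^ 2 + x1 ^ 2 + x2 ^ 2 - 1 = (x2 - y) * (x2 + y) := by nlinarith
  rw [e, abs_mul, abs_of_nonneg (show 0 ≤ x2 + y by linarith)]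
  have : (3/2 : ℝ) ≤ x2 + y := by linarith
  nlinarith [abs_nonneg (x2 - y)]

/-- the slope of the stereographic coordinates and the slope of the graph -/
theorem slope_eq {x0 x1 x2 : ℝ} (h0 : |x0 - 4/9| ≤ 1/100) (h1 : |x1 - 4/9| ≤ 1/100) (h2 : |x2 - 7/9| ≤ 1/100)
    (hq : |x0 ^ 2 + x1 ^ 2 + x2 ^ 2 - 1| ≤ 1/100) :
    |2 * (x0 / (1 + x2)) / (1 - (x0 / (1 + x2)) ^ 2 - (x1 / (1 + x2)) ^ 2) - x0 / Real.sqrt (1 - x0 ^ 2 - x1 ^ 2)| ≤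
      |x0 ^ 2 + x1 ^ 2 + x2 ^ 2 - 1| := by
  obtain ⟨hh, hd⟩ := height h0 h1 h2
  rw [abs_le] at h0 h1 h2
  set y := Real.sqrt (1 - x0 ^ 2 - x1 ^ 2) with hy
  set q := x0 ^ 2 + x1 ^ 2 + x2 ^ 2 - 1 with hqd
  have hq' := abs_le.mp hq
  have hp : 0 < 1 + x2 := by linarith
  have hD : 2.6 ≤ 2 * x2 * (1 + x2) - q := by nlinarith
  have hD0 : 0 < 2 * x2 * (1 + x2) - q := by linarith
  have hy0 : 0 < y := by linarith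
  have e1 : 2 * (x0 / (1 + x2)) / (1 - (x0 / (1 + x2)) ^ 2 - (x1 / (1 + x2)) ^ 2) =
      2 * x0 * (1 + x2) / (2 * x2 * (1 + x2) - q) := by
    have e2 : 1 - (x0 / (1 + x2)) ^ 2 - (x1 / (1 + x2)) ^ 2 = (2 * x2 * (1 + x2) - q) / (1 + x2) ^ 2 := by
      rw [hqd]
      field_simp
      ring
    rw [e2]
    have hD1 := hD0.ne'
    field_simp
  have e3 : 2 * x0 * (1 + x2) / (2 * x2 * (1 + x2) - q) - x0 / y =
      x0 * (2 * (1 + x2) * (y - x2) + q) / ((2 * x2 * (1 + x2) - q) * y) := by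
    have hD1 := hD0.ne'
    have hy1 := hy0.ne'
    field_simp
    ring
  rw [e1, e3, abs_div, abs_mul, abs_of_pos (show 0 < x0 by linarith), abs_of_pos (mul_pos hD0 hy0),
    div_le_iff₀ (mul_pos hD0 hy0)]
  have hn : |2 * (1 + x2) * (y - x2) + q| ≤ 3.5 * |q| := by
    refine (abs_add_le _ _).trans ?_
    rw [abs_mul, abs_of_pos (show (0:ℝ) < 2 * (1 + x2) by linarith), abs_sub_comm]
    have : 2 * (1 + x2) * |x2 - y| ≤ 3.6 * (2/3 * |q|) := by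
      apply mul_le_mul _ hd (abs_nonneg _) (by norm_num)
      linarith
    have := abs_nonneg q
    linarith
  have hDy : 1.95 ≤ (2 * x2 * (1 + x2) - q) * y := by nlinarith
  have hqn := abs_nonneg q
  calc x0 * |2 * (1 + x2) * (y - x2) + q| ≤ 0.5 * (3.5 * |q|) := by
        apply mul_le_mul _ hn (abs_nonneg _) (by norm_num)
        linarith
    _ ≤ |q| * ((2 * x2 * (1 + x2) - q) * y) := by nlinarith

/-- the slope is a Lipschitz function of the stereographic coordinates -/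
theorem slope_lip {a b c d : ℝ} (ha : 0 ≤ a) (ha' : a ≤ 3/10) (hb : 0 ≤ b) (hb' : b ≤ 3/10) (hc : 0 ≤ c) (hc' : c ≤ 3/10)
    (hd : 0 ≤ d) (hd' : d ≤ 3/10) :
    |2 * a / (1 - a ^ 2 - b ^ 2) - 2 * c / (1 - c ^ 2 - d ^ 2)| ≤ 4 * (|a - c| + |b - d|) := by
  have h1 : 0.82 ≤ 1 - a ^ 2 - b ^ 2 := by nlinarith
  have h2 : 0.82 ≤ 1 - c ^ 2 - d ^ 2 := by nlinarith
  have p1 : 0 < 1 - a ^ 2 - b ^ 2 := by linarith
  have p2 : 0 < 1 - c ^ 2 - d ^ 2 := by linarith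
  have e : 2 * a / (1 - a ^ 2 - b ^ 2) - 2 * c / (1 - c ^ 2 - d ^ 2) =
      ((a - c) * (2 * (1 - c ^ 2 - d ^ 2) + 2 * c * (a + c)) + (b - d) * (2 * c * (b + d))) /
        ((1 - a ^ 2 - b ^ 2) * (1 - c ^ 2 - d ^ 2)) := by
    have := p1.ne'
    have := p2.ne'
    field_simp
    ring
  rw [e, abs_div, abs_of_pos (mul_pos p1 p2), div_le_iff₀ (mul_pos p1 p2)]
  refine (abs_add_le _ _).trans ?_
  rw [abs_mul, abs_mul, abs_of_nonneg (show 0 ≤ 2 * (1 - c ^ 2 - d ^ 2) + 2 * c * (a + c) by nlinarith),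
    abs_of_nonneg (show 0 ≤ 2 * c * (b + d) by positivity)]
  have hA := abs_nonneg (a - c)
  have hB := abs_nonneg (b - d)
  have k1 : 2 * (1 - c ^ 2 - d ^ 2) + 2 * c * (a + c) ≤ 2.36 := by nlinarith
  have k2 : 2 * c * (b + d) ≤ 0.36 := by nlinarith
  have k3 : 0.67 ≤ (1 - a ^ 2 - b ^ 2) * (1 - c ^ 2 - d ^ 2) := by nlinarith
  nlinarith [mul_le_mul_of_nonneg_left k1 hA, mul_le_mul_of_nonneg_left k2 hB]

theorem slope_bd {a b : ℝ} (ha : 0 ≤ a) (ha' : a ≤ 3/10) (hb : 0 ≤ b) (hb' : b ≤ 3/10) :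
    0 ≤ 2 * a / (1 - a ^ 2 - b ^ 2) ∧ 2 * a / (1 - a ^ 2 - b ^ 2) < 1 := by
  have h1 : 0.82 ≤ 1 - a ^ 2 - b ^ 2 := by nlinarith
  have p1 : 0 < 1 - a ^ 2 - b ^ 2 := by linarith
  refine ⟨div_nonneg (by linarith) p1.le, ?_⟩
  rw [div_lt_one p1]
  linarith

/-- the stereographic coordinates and the index of the cell -/
theorem idx_near {N : ℝ} (hN : 1024 ≤ N) {v o : ℝ} (ho : o ∈ Icc (0:ℝ) (1/2)) (h1 : 0.23 ≤ v) (h2 : v ≤ 0.27) :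
    0 ≤ (⌊N * v - o⌋ : ℝ) / N ∧ (⌊N * v - o⌋ : ℝ) / N ≤ 3/10 ∧ |(⌊N * v - o⌋ : ℝ) / N - v| ≤ (3/2) / N := by
  have hN0 : 0 < N := by linarith
  have f1 := Int.floor_le (N * v - o)
  have f2 := Int.lt_floor_add_one (N * v - o)
  obtain ⟨o1, o2⟩ := ho
  refine ⟨?_, ?_, ?_⟩
  · apply div_nonneg _ hN0.le
    nlinarith
  · rw [div_le_iff₀ hN0]
    nlinarith
  · have e : (⌊N * v - o⌋ : ℝ) / N - v = (⌊N * v - o⌋ - N * v) / N := by field_simp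
    rw [e, abs_div, abs_of_pos hN0]
    gcongr
    rw [abs_le]
    constructor <;> linarith

/-- one coordinate of the comparison -/
theorem main_one {N : ℝ} (hN : 1024 ≤ N) {x0 x1 x2 o o' : ℝ} (ho : o ∈ Icc (0:ℝ) (1/2)) (ho' : o' ∈ Icc (0:ℝ) (1/2))
    (h0 : |x0 - 4/9| ≤ 1/100) (h1 : |x1 - 4/9| ≤ 1/100) (h2 : |x2 - 7/9| ≤ 1/100)
    (hq : |x0 ^ 2 + x1 ^ 2 + x2 ^ 2 - 1| ≤ (1/100) / N ^ 2)
    (g1 : |x0 / (1 + x2) - 1/4| ≤ 1/80) (g2 : |x1 / (1 + x2) - 1/4| ≤ 1/80) :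
    let a : ℝ := (⌊N * (x0 / (1 + x2)) - o⌋ : ℝ) / N
    let b : ℝ := (⌊N * (x1 / (1 + x2)) - o'⌋ : ℝ) / N
    (0 ≤ 2 * a / (1 - a ^ 2 - b ^ 2) ∧ 2 * a / (1 - a ^ 2 - b ^ 2) < 1) ∧
    |x0 / Real.sqrt (1 - x0 ^ 2 - x1 ^ 2) - 2 * a / (1 - a ^ 2 - b ^ 2)| ≤ 13 / N := by
  intro a b
  rw [abs_le] at g1 g2
  have hN0 : 0 < N := by linarith
  obtain ⟨a1, a2, a3⟩ := idx_near hN ho (v := x0 / (1 + x2)) (by linarith) (by linarith)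
  obtain ⟨b1, b2, b3⟩ := idx_near hN ho' (v := x1 / (1 + x2)) (by linarith) (by linarith)
  refine ⟨slope_bd a1 a2 b1 b2, ?_⟩
  have l1 := slope_lip a1 a2 b1 b2 (c := x0 / (1 + x2)) (d := x1 / (1 + x2)) (by linarith) (by linarith) (by linarith)
    (by linarith)
  have hN2 : (1/100) / N ^ 2 ≤ (1/100) / N := by
    apply div_le_div_of_nonneg_left (by norm_num) hN0
    nlinarith
  have hq1 : |x0 ^ 2 + x1 ^ 2 + x2 ^ 2 - 1| ≤ 1/100 := by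
    refine (hq.trans hN2).trans ?_
    rw [div_le_iff₀ hN0]
    linarith
  have l2 := slope_eq h0 h1 h2 hq1
  have e : x0 / Real.sqrt (1 - x0 ^ 2 - x1 ^ 2) - 2 * a / (1 - a ^ 2 - b ^ 2) =
      -(2 * (x0 / (1 + x2)) / (1 - (x0 / (1 + x2)) ^ 2 - (x1 / (1 + x2)) ^ 2) - x0 / Real.sqrt (1 - x0 ^ 2 - x1 ^ 2)) -
      (2 * a / (1 - a ^ 2 - b ^ 2) - 2 * (x0 / (1 + x2)) / (1 - (x0 / (1 + x2)) ^ 2 - (x1 / (1 + x2)) ^ 2)) := by ring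
  rw [e]
  refine (abs_sub _ _).trans ?_
  rw [abs_neg]
  have l3 : 4 * (|a - x0 / (1 + x2)| + |b - x1 / (1 + x2)|) ≤ 12 / N := by
    have : (3/2) / N + (3/2) / N = 3 / N := by ring
    have : 4 * (3 / N) = 12 / N := by ring
    linarith
  have l4 : (1/100) / N ≤ 1 / N := by gcongr; norm_num
  have l5 : 12 / N + 1 / N = 13 / N := by ring
  linarith

/-- [A2] -/
theorem stDat : StDat := by
  refine ⟨16, by norm_num, ?_⟩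
  intro c1 K n o1 o2 g H
  have hNr : (1024:ℝ) ≤ ((2 ^ (K * n) : ℕ) : ℝ) := by
    have := H.big
    have h : (2 ^ 10 : ℕ) ≤ 2 ^ (K * n) := this
    calc (1024:ℝ) = ((2 ^ 10 : ℕ) : ℝ) := by norm_num
      _ ≤ _ := by exact_mod_cast h
  have hcast : ((2 ^ (K * n) : ℕ) : ℝ) = (2:ℝ) ^ (K * n) := by push_cast; rfl
  have hN0 : (0:ℝ) < ((2 ^ (K * n) : ℕ) : ℝ) := by linarith
  -- the support of a piece
  have key : ∀ (θ : Z2) (ξ : E3), pcs (2 ^ (K * n)) o1 o2 g θ ξ ≠ 0 → g ξ ≠ 0 ∧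
      sidx (2 ^ (K * n)) (⌊((2 ^ (K * n) : ℕ) : ℝ) * v1 ξ - o1⌋, ⌊((2 ^ (K * n) : ℕ) : ℝ) * v2 ξ - o2⌋) = θ := by
    intro θ ξ h
    classical
    unfold pcs at h
    obtain ⟨k, hk, hk'⟩ := Finset.exists_ne_zero_of_sum_ne_zero h
    obtain ⟨e, hg⟩ := pc_ne hk'
    refine ⟨hg, ?_⟩
    rw [e]
    exact (Finset.mem_filter.mp hk).2
  -- coordinates
  have crd : ∀ ξ : E3, g ξ ≠ 0 → |ξ 0 - 4/9| ≤ 1/100 ∧ |ξ 1 - 4/9| ≤ 1/100 ∧ |ξ 2 - 7/9| ≤ 1/100 := by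
    intro ξ h
    have hl := (H.ams.loc ξ h).trans H.c1le
    have h0 := (abs_coord_le (ξ - xist) 0).trans hl
    have h1 := (abs_coord_le (ξ - xist) 1).trans hl
    have h2 := (abs_coord_le (ξ - xist) 2).trans hl
    simp only [PiLp.sub_apply, xist0, xist1, xist2] at h0 h1 h2
    exact ⟨h0, h1, h2⟩
  have sph : ∀ ξ : E3, g ξ ≠ 0 → |ξ 0 ^ 2 + ξ 1 ^ 2 + ξ 2 ^ 2 - 1| ≤ (1/100) / ((2 ^ (K * n) : ℕ) : ℝ) ^ 2 := by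
    intro ξ h
    rw [← norm3_sq]
    refine (H.ams.sph ξ h).trans ?_
    have := H.c1le
    gcongr
  have vn : ∀ ξ : E3, g ξ ≠ 0 → |ξ 0 / (1 + ξ 2) - 1/4| ≤ 1/80 ∧ |ξ 1 / (1 + ξ 2) - 1/4| ≤ 1/80 := by
    intro ξ h
    have hc := H.c1le
    obtain ⟨-, h1, h2⟩ := v_near (hc.trans (by norm_num)) (H.ams.loc ξ h)
    unfold v1 at h1
    unfold v2 at h2
    exact ⟨h1.trans (by linarith), h2.trans (by linarith)⟩
  have slo : ∀ (θ : Z2) (ξ : E3), pcs (2 ^ (K * n)) o1 o2 g θ ξ ≠ 0 → ∀ k : Fin 2, (0 ≤ θ k ∧ θ k < 2 ^ (K * n)) ∧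
      |vS (hz ξ) k - θ k / 2 ^ (K * n)| ≤ 16 / 2 ^ (K * n) := by
    intro θ ξ h
    obtain ⟨hg, hθ⟩ := key θ ξ h
    obtain ⟨h0, h1, h2⟩ := crd ξ hg
    have hq := sph ξ hg
    obtain ⟨g1, g2⟩ := vn ξ hg
    have hq' : |ξ 1 ^ 2 + ξ 0 ^ 2 + ξ 2 ^ 2 - 1| ≤ (1/100) / ((2 ^ (K * n) : ℕ) : ℝ) ^ 2 := by
      rw [show ξ 1 ^ 2 + ξ 0 ^ 2 + ξ 2 ^ 2 - 1 = ξ 0 ^ 2 + ξ 1 ^ 2 + ξ 2 ^ 2 - 1 by ring]
      exact hq
    have m0 := main_one hNr H.ho1 H.ho2 h0 h1 h2 hq g1 g2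
    have m1 := main_one hNr H.ho2 H.ho1 h1 h0 h2 hq' g2 g1
    have fl : ∀ r : ℝ, 0 ≤ r → r < 1 → (0 ≤ ⌊((2 ^ (K * n) : ℕ) : ℝ) * r⌋ ∧ ⌊((2 ^ (K * n) : ℕ) : ℝ) * r⌋ < 2 ^ (K * n)) ∧
        |r - (⌊((2 ^ (K * n) : ℕ) : ℝ) * r⌋ : ℝ) / 2 ^ (K * n)| ≤ 1 / 2 ^ (K * n) := by
      intro r hr hr'
      rw [← hcast]
      have f1 := Int.floor_le (((2 ^ (K * n) : ℕ) : ℝ) * r)
      have f2 := Int.lt_floor_add_one (((2 ^ (K * n) : ℕ) : ℝ) * r)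
      refine ⟨⟨?_, ?_⟩, ?_⟩
      · rw [Int.floor_nonneg]; positivity
      · rw [Int.floor_lt]
        push_cast
        rw [← hcast]
        nlinarith
      · have e : r - (⌊((2 ^ (K * n) : ℕ) : ℝ) * r⌋ : ℝ) / ((2 ^ (K * n) : ℕ) : ℝ) =
            (((2 ^ (K * n) : ℕ) : ℝ) * r - (⌊((2 ^ (K * n) : ℕ) : ℝ) * r⌋ : ℝ)) / ((2 ^ (K * n) : ℕ) : ℝ) := by
          field_simp
        rw [e, abs_div, abs_of_pos hN0]
        gcongr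
        rw [abs_le]
        constructor <;> linarith
    have fin : ∀ (x r : ℝ), |x - r| ≤ 13 / ((2 ^ (K * n) : ℕ) : ℝ) →
        |r - (⌊((2 ^ (K * n) : ℕ) : ℝ) * r⌋ : ℝ) / 2 ^ (K * n)| ≤ 1 / 2 ^ (K * n) →
        |x - (⌊((2 ^ (K * n) : ℕ) : ℝ) * r⌋ : ℝ) / 2 ^ (K * n)| ≤ 16 / 2 ^ (K * n) := by
      intro x r hx hr
      have := abs_sub_le x r ((⌊((2 ^ (K * n) : ℕ) : ℝ) * r⌋ : ℝ) / 2 ^ (K * n))
      have e1 : (13:ℝ) / ((2 ^ (K * n) : ℕ) : ℝ) + 1 / 2 ^ (K * n) = 14 / 2 ^ (K * n) := by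
        rw [hcast]; ring
      have e2 : (14:ℝ) / 2 ^ (K * n) ≤ 16 / 2 ^ (K * n) := by gcongr; norm_num
      linarith
    have hs : ∀ k : Fin 2, ∃ r : ℝ, θ k = ⌊((2 ^ (K * n) : ℕ) : ℝ) * r⌋ ∧ 0 ≤ r ∧ r < 1 ∧
        |vS (hz ξ) k - r| ≤ 13 / ((2 ^ (K * n) : ℕ) : ℝ) := by
      intro k
      fin_cases k
      · refine ⟨_, (congrFun hθ 0).symm, ?_⟩
        obtain ⟨⟨p1, p2⟩, p3⟩ := m0
        exact ⟨p1, p2, p3⟩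
      · refine ⟨_, (congrFun hθ 1).symm, ?_⟩
        obtain ⟨⟨p1, p2⟩, p3⟩ := m1
        have ee : ∀ A B : ℝ, 2 * B / (1 - A ^ 2 - B ^ 2) = 2 * B / (1 - B ^ 2 - A ^ 2) := by
          intro A B
          rw [show 1 - A ^ 2 - B ^ 2 = 1 - B ^ 2 - A ^ 2 by ring]
        have e2 : sl2 (2 ^ (K * n)) (⌊((2 ^ (K * n) : ℕ) : ℝ) * v1 ξ - o1⌋, ⌊((2 ^ (K * n) : ℕ) : ℝ) * v2 ξ - o2⌋) =
            2 * ((⌊((2 ^ (K * n) : ℕ) : ℝ) * (ξ 1 / (1 + ξ 2)) - o2⌋ : ℝ) / ((2 ^ (K * n) : ℕ) : ℝ)) /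
            (1 - ((⌊((2 ^ (K * n) : ℕ) : ℝ) * (ξ 1 / (1 + ξ 2)) - o2⌋ : ℝ) / ((2 ^ (K * n) : ℕ) : ℝ)) ^ 2 -
              ((⌊((2 ^ (K * n) : ℕ) : ℝ) * (ξ 0 / (1 + ξ 2)) - o1⌋ : ℝ) / ((2 ^ (K * n) : ℕ) : ℝ)) ^ 2) := by
          unfold sl2
          exact ee _ _
        rw [e2]
        refine ⟨p1, p2, ?_⟩
        have e3 : vS (hz ξ) 1 = ξ 1 / Real.sqrt (1 - ξ 1 ^ 2 - ξ 0 ^ 2) := by
          have : (1 - ξ 1 ^ 2 - ξ 0 ^ 2 : ℝ) = 1 - ξ 0 ^ 2 - ξ 1 ^ 2 := by ring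
          rw [this]
          rfl
        show |vS (hz ξ) 1 - _| ≤ _
        rw [e3]
        exact p3
    intro k
    obtain ⟨r, e, r0, r1, r2⟩ := hs k
    obtain ⟨q1, q2⟩ := fl r r0 r1
    rw [e]
    exact ⟨q1, fin _ _ r2 q2⟩
  refine ⟨?_, fun θ ξ h k => (slo θ ξ h k).1, ?_, fun θ ξ h k => (slo θ ξ h k).2, ?_⟩
  · intro θ
    have e : pcs (2 ^ (K * n)) o1 o2 g θ = fun ξ => ∑ k ∈ (by classical exact (grd (2 ^ (K * n))).filter (fun k => sidx (2 ^ (K * n)) k = θ)),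
        pc (2 ^ (K * n)) o1 o2 k g ξ := by
      ext ξ
      rfl
    rw [e]
    exact integrable_finset_sum _ fun k _ => integrable_pc H.ams.int
  · intro θ ξ h i
    obtain ⟨h0, h1, -⟩ := crd ξ (key θ ξ h).1
    fin_cases i
    · exact h0.trans (by norm_num)
    · exact h1.trans (by norm_num)
  · intro θ ξ h
    obtain ⟨hg, -⟩ := key θ ξ h
    obtain ⟨h0, h1, h2⟩ := crd ξ hg
    obtain ⟨-, hd⟩ := height h0 h1 h2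
    have hq := sph ξ hg
    have e : (2:ℝ) ^ (2 * K * n) = ((2 ^ (K * n) : ℕ) : ℝ) ^ 2 := by
      rw [hcast, ← pow_mul]
      congr 1
      ring
    rw [e]
    calc |ξ 2 - hS (hz ξ)| = |ξ 2 - Real.sqrt (1 - ξ 0 ^ 2 - ξ 1 ^ 2)| := rfl
      _ ≤ 2/3 * |ξ 0 ^ 2 + ξ 1 ^ 2 + ξ 2 ^ 2 - 1| := hd
      _ ≤ |ξ 0 ^ 2 + ξ 1 ^ 2 + ξ 2 ^ 2 - 1| := by nlinarith [abs_nonneg (ξ 0 ^ 2 + ξ 1 ^ 2 + ξ 2 ^ 2 - 1)]
      _ ≤ (1/100) / ((2 ^ (K * n) : ℕ) : ℝ) ^ 2 := hq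
      _ ≤ 16 / ((2 ^ (K * n) : ℕ) : ℝ) ^ 2 := by gcongr; norm_num

end Vale.Agent.P117.AN572
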