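import Vale.Agent.P117.AN577.Geo
import Vale.Agent.P117.KC.Loc3

/-! # P117 / AN572 : pointwise bound of the free pieces by the tube averages, and the slopes of the cells (helper572) -/

open MeasureTheory Complex Set
open scoped ENNReal NNReal ContDiff FourierTransform

set_option linter.all false

namespace Vale.Agent.P117.AN572

open Vale.Agent.P122.C2 (Z2 fw fn)
open Vale.Agent.P122.AN (slp)
open Vale.Agent.P117.K (E3 grd pc sl1 sl2 Ams den dirP v1 v2 xist)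
open Vale.Agent.P117.AN577 (sidx pcs Hyp kx kx_near mem_grd)
open Vale.Agent.P117.KC (pt_den pc_ne)

theorem coefA {a c D : ℝ} (ha : 0.24 ≤ a) (hc : 0.24 ≤ c) (hD : 0.86 ≤ D) : 1.9 ≤ 2 * D + 2 * c * (a + c) := by
  nlinarith [mul_nonneg (sub_nonneg.mpr hc) (show 0 ≤ a + c - 0.48 by linarith)]

theorem coefB {b c d : ℝ} (hb : 0.24 ≤ b) (hb' : b ≤ 0.26) (hc : 0.24 ≤ c) (hc' : c ≤ 0.26) (hd : 0.24 ≤ d) (hd' : d ≤ 0.26) :
    0 ≤ 2 * c * (b + d) ∧ 2 * c * (b + d) ≤ 0.28 := by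
  constructor
  · have : 0 ≤ c := by linarith
    have : 0 ≤ b + d := by linarith
    positivity
  · nlinarith [mul_nonneg (sub_nonneg.mpr hc') (show 0 ≤ b + d by linarith)]

theorem coefD {a b : ℝ} (ha : 0.24 ≤ a) (ha' : a ≤ 0.26) (hb : 0.24 ≤ b) (hb' : b ≤ 0.26) :
    0.86 ≤ 1 - a ^ 2 - b ^ 2 ∧ 1 - a ^ 2 - b ^ 2 ≤ 0.885 := by
  constructor <;> nlinarith

theorem low {x y A B : ℝ} (hA : 1.9 ≤ A) (hB : 0 ≤ B) (hB' : B ≤ 0.28) : 1.9 * |x| - 0.28 * |y| ≤ |x * A + y * B| := by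
  have t1 : |x * A| - |y * B| ≤ |x * A + y * B| := by
    have := abs_sub_abs_le_abs_sub (x * A) (-(y * B))
    rw [abs_neg, sub_neg_eq_add] at this
    exact this
  rw [abs_mul, abs_mul, abs_of_nonneg hB, abs_of_nonneg (show 0 ≤ A by linarith)] at t1
  have h1 := mul_le_mul_of_nonneg_left hA (abs_nonneg x)
  have h2 := mul_le_mul_of_nonneg_left hB' (abs_nonneg y)
  linarith

theorem expand {x y A1 B1 A2 B2 P δ : ℝ} (hA1 : 1.9 ≤ A1) (hA2 : 1.9 ≤ A2) (hB1 : 0 ≤ B1) (hB1' : B1 ≤ 0.28) (hB2 : 0 ≤ B2)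
    (hB2' : B2 ≤ 0.28) (hP : P ≤ 0.79) (hδ : 0 ≤ δ) (h1 : |x * A1 + y * B1| ≤ δ * P) (h2 : |y * A2 + x * B2| ≤ δ * P) :
    2 * |x| ≤ δ ∧ 2 * |y| ≤ δ := by
  have k : δ * P ≤ δ * 0.79 := mul_le_mul_of_nonneg_left hP hδ
  have l1 := (low hA1 hB1 hB1' (x := x) (y := y)).trans (h1.trans k)
  have l2 := (low hA2 hB2 hB2' (x := y) (y := x)).trans (h2.trans k)
  have x0 := abs_nonneg x
  have y0 := abs_nonneg y
  rcases le_total |x| |y| with h | h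
  · constructor <;> linarith
  · constructor <;> linarith

/-- the slope map expands by a factor `2` near `(1/4, 1/4)` -/
theorem slope_exp {a b c d δ : ℝ} (ha : |a - 1/4| ≤ 1/100) (hb : |b - 1/4| ≤ 1/100) (hc : |c - 1/4| ≤ 1/100)
    (hd : |d - 1/4| ≤ 1/100)
    (h1 : |2 * a / (1 - a ^ 2 - b ^ 2) - 2 * c / (1 - c ^ 2 - d ^ 2)| ≤ δ)
    (h2 : |2 * b / (1 - a ^ 2 - b ^ 2) - 2 * d / (1 - c ^ 2 - d ^ 2)| ≤ δ) :
    2 * |a - c| ≤ δ ∧ 2 * |b - d| ≤ δ := by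
  rw [abs_le] at ha hb hc hd
  obtain ⟨a1, a2⟩ := ha
  obtain ⟨b1, b2⟩ := hb
  obtain ⟨c1, c2⟩ := hc
  obtain ⟨d1, d2⟩ := hd
  have a3 : 0.24 ≤ a := by linarith
  have a4 : a ≤ 0.26 := by linarith
  have b3 : 0.24 ≤ b := by linarith
  have b4 : b ≤ 0.26 := by linarith
  have c3 : 0.24 ≤ c := by linarith
  have c4 : c ≤ 0.26 := by linarith
  have d3 : 0.24 ≤ d := by linarith
  have d4 : d ≤ 0.26 := by linarith
  obtain ⟨p1, q1⟩ := coefD a3 a4 b3 b4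
  obtain ⟨p2, q2⟩ := coefD c3 c4 d3 d4
  have hδ : 0 ≤ δ := (abs_nonneg _).trans h1
  have P : (1 - a ^ 2 - b ^ 2) * (1 - c ^ 2 - d ^ 2) ≤ 0.79 := by
    calc (1 - a ^ 2 - b ^ 2) * (1 - c ^ 2 - d ^ 2) ≤ 0.885 * 0.885 :=
          mul_le_mul q1 q2 (by linarith) (by norm_num)
      _ ≤ 0.79 := by norm_num
  have P1 : 0 < 1 - a ^ 2 - b ^ 2 := by linarith
  have P2 : 0 < 1 - c ^ 2 - d ^ 2 := by linarith
  have P0 : 0 < (1 - a ^ 2 - b ^ 2) * (1 - c ^ 2 - d ^ 2) := mul_pos P1 P2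
  have e1 : 2 * a / (1 - a ^ 2 - b ^ 2) - 2 * c / (1 - c ^ 2 - d ^ 2) =
      ((a - c) * (2 * (1 - c ^ 2 - d ^ 2) + 2 * c * (a + c)) + (b - d) * (2 * c * (b + d))) /
        ((1 - a ^ 2 - b ^ 2) * (1 - c ^ 2 - d ^ 2)) := by
    have := P1.ne'
    have := P2.ne'
    field_simp
    ring
  have e2 : 2 * b / (1 - a ^ 2 - b ^ 2) - 2 * d / (1 - c ^ 2 - d ^ 2) =
      ((b - d) * (2 * (1 - c ^ 2 - d ^ 2) + 2 * d * (b + d)) + (a - c) * (2 * d * (a + c))) /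
        ((1 - a ^ 2 - b ^ 2) * (1 - c ^ 2 - d ^ 2)) := by
    have := P1.ne'
    have := P2.ne'
    field_simp
    ring
  rw [e1, abs_div, abs_of_pos P0, div_le_iff₀ P0] at h1
  rw [e2, abs_div, abs_of_pos P0, div_le_iff₀ P0] at h2
  exact expand (coefA a3 c3 p2) (coefA b3 d3 p2) (coefB b3 b4 c3 c4 d3 d4).1 (coefB b3 b4 c3 c4 d3 d4).2
    (coefB a3 a4 d3 d4 c3 c4).1 (coefB a3 a4 d3 d4 c3 c4).2 P hδ h1 h2

/-- at most one stereographic cell near `(1/4, 1/4)` has a given slope index -/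
theorem sidx_inj {N : ℕ} (hN : 1 ≤ N) {k l : ℤ × ℤ}
    (k1 : |(k.1:ℝ) / N - 1/4| ≤ 1/100) (k2 : |(k.2:ℝ) / N - 1/4| ≤ 1/100)
    (l1 : |(l.1:ℝ) / N - 1/4| ≤ 1/100) (l2 : |(l.2:ℝ) / N - 1/4| ≤ 1/100) (h : sidx N k = sidx N l) : k = l := by
  have hN' : (1:ℝ) ≤ N := by exact_mod_cast hN
  have hN0 : (0:ℝ) < N := by linarith
  have f : ∀ x y : ℝ, ⌊(N:ℝ) * x⌋ = ⌊(N:ℝ) * y⌋ → |x - y| ≤ 1 / N := by
    intro x y hxy
    have x1 := Int.floor_le ((N:ℝ) * x)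
    have x2 := Int.lt_floor_add_one ((N:ℝ) * x)
    have y1 := Int.floor_le ((N:ℝ) * y)
    have y2 := Int.lt_floor_add_one ((N:ℝ) * y)
    rw [hxy] at x1 x2
    rw [abs_le]
    constructor
    · rw [neg_le_sub_iff_le_add, ← sub_le_iff_le_add, ← mul_le_mul_iff_right₀ hN0]
      rw [mul_sub, mul_one_div_cancel hN0.ne']
      linarith
    · rw [sub_le_iff_le_add, ← sub_le_iff_le_add, ← mul_le_mul_iff_right₀ hN0]
      rw [mul_sub, mul_one_div_cancel hN0.ne']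
      linarith
  have s1 : |sl1 N k - sl1 N l| ≤ 1 / N := f _ _ (congrFun h 0)
  have s2 : |sl2 N k - sl2 N l| ≤ 1 / N := f _ _ (congrFun h 1)
  obtain ⟨r1, r2⟩ := slope_exp k1 k2 l1 l2 s1 s2
  have g : ∀ x y : ℤ, 2 * |(x:ℝ) / N - y / N| ≤ 1 / N → x = y := by
    intro x y hxy
    have e : (x:ℝ) / N - y / N = ((x - y : ℤ) : ℝ) / N := by push_cast; ring
    rw [e, abs_div, abs_of_pos hN0, ← mul_div_assoc, div_le_div_iff_of_pos_right hN0] at hxy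
    have h3 : |((x - y : ℤ) : ℝ)| < 1 := by linarith
    rw [← Int.cast_abs] at h3
    have h4 : |x - y| < 1 := by exact_mod_cast h3
    have := Int.abs_lt_one_iff.mp h4
    omega
  exact Prod.ext (g _ _ r1) (g _ _ r2)

/-- the cells of the nonzero pieces -/
theorem near_of_ne {c1 : ℝ} {K n : ℕ} {o1 o2 : ℝ} {g : E3 → ℂ} (H : Hyp c1 K n o1 o2 g) {k : ℤ × ℤ} {ξ : E3}
    (h : pc (2 ^ (K * n)) o1 o2 k g ξ ≠ 0) :
    k ∈ grd (2 ^ (K * n)) ∧ |(k.1:ℝ) / (2 ^ (K * n) : ℕ) - 1/4| ≤ 1/100 ∧ |(k.2:ℝ) / (2 ^ (K * n) : ℕ) - 1/4| ≤ 1/100 := by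
  obtain ⟨e, hg⟩ := pc_ne h
  obtain ⟨-, -, h1, h2⟩ := kx_near H hg
  have e' : kx (2 ^ (K * n)) o1 o2 ξ = k := e
  rw [e'] at h1 h2
  exact ⟨mem_grd H.big h1 h2, h1, h2⟩

/-- every free piece is zero or one stereographic piece -/
theorem pcs_cases {c1 : ℝ} {K n : ℕ} {o1 o2 : ℝ} {g : E3 → ℂ} (H : Hyp c1 K n o1 o2 g) (θ : Z2) :
    pcs (2 ^ (K * n)) o1 o2 g θ = 0 ∨ ∃ k ∈ grd (2 ^ (K * n)), sidx (2 ^ (K * n)) k = θ ∧
      pcs (2 ^ (K * n)) o1 o2 g θ = pc (2 ^ (K * n)) o1 o2 k g := by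
  classical
  by_cases hz : ∃ k ∈ grd (2 ^ (K * n)), sidx (2 ^ (K * n)) k = θ ∧ ∃ ξ, pc (2 ^ (K * n)) o1 o2 k g ξ ≠ 0
  · right
    obtain ⟨k, hk, hθ, ξ, hξ⟩ := hz
    refine ⟨k, hk, hθ, ?_⟩
    obtain ⟨-, a1, a2⟩ := near_of_ne H hξ
    ext η
    unfold pcs
    refine Finset.sum_eq_single_of_mem k (Finset.mem_filter.mpr ⟨hk, hθ⟩) ?_
    intro l hl hlk
    by_contra hne
    obtain ⟨-, b1, b2⟩ := near_of_ne H hne
    exact hlk (sidx_inj Nat.one_le_two_pow b1 b2 a1 a2 ((Finset.mem_filter.mp hl).2.trans hθ.symm))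
  · left
    push Not at hz
    ext η
    unfold pcs
    refine Finset.sum_eq_zero ?_
    intro k hk
    rw [Finset.mem_filter] at hk
    exact hz k hk.1 hk.2 η

/-- **pointwise bound of the free pieces** -/
theorem pcs_den (M : ℕ) : ∃ C : ℝ, 0 ≤ C ∧ ∀ (c1 : ℝ) (K n : ℕ) (o1 o2 : ℝ) (g : E3 → ℂ), Hyp c1 K n o1 o2 g →
    ∀ (θ : Z2) (z : E3), ‖𝓕⁻ (pcs (2 ^ (K * n)) o1 o2 g θ) z‖ₑ ^ 2 ≤
      ENNReal.ofReal C * ∑ k ∈ (by classical exact (grd (2 ^ (K * n))).filter (fun k => sidx (2 ^ (K * n)) k = θ)),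
        den M (2 ^ (K * n)) o1 o2 g k z := by
  classical
  obtain ⟨C, hC, h⟩ := pt_den M
  refine ⟨C, hC, ?_⟩
  intro c1 K n o1 o2 g H θ z
  have hN : 4 ≤ 2 ^ (K * n) := le_trans (by norm_num) H.big
  rcases pcs_cases H θ with h0 | ⟨k, hk, hθ, he⟩
  · rw [h0]
    have : 𝓕⁻ (0 : E3 → ℂ) z = 0 := by
      rw [Real.fourierInv_eq]
      simp
    rw [this]
    simp
  · rw [he]
    refine (h _ o1 o2 c1 g hN H.ho1 H.ho2 H.c1le H.ams k z).trans ?_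
    gcongr
    exact Finset.single_le_sum (f := fun k => den M (2 ^ (K * n)) o1 o2 g k z) (fun _ _ => zero_le') (Finset.mem_filter.mpr ⟨hk, hθ⟩)

/-- the slopes of a cell and of its slope index -/
theorem sl_slp {K n : ℕ} {k : ℤ × ℤ} {θ : Z2} (h : sidx (2 ^ (K * n)) k = θ) :
    |sl1 (2 ^ (K * n)) k - slp n K θ 0| ≤ (1/2) ^ (K * n) ∧ |sl2 (2 ^ (K * n)) k - slp n K θ 1| ≤ (1/2) ^ (K * n) := by
  have hc : ((2 ^ (K * n) : ℕ) : ℝ) = (2:ℝ) ^ (K * n) := by push_cast; rfl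
  have hN0 : (0:ℝ) < (2:ℝ) ^ (K * n) := by positivity
  have f : ∀ x : ℝ, |x - (⌊((2 ^ (K * n) : ℕ) : ℝ) * x⌋ : ℝ) / 2 ^ (K * n)| ≤ (1/2) ^ (K * n) := by
    intro x
    rw [hc]
    have x1 := Int.floor_le ((2:ℝ) ^ (K * n) * x)
    have x2 := Int.lt_floor_add_one ((2:ℝ) ^ (K * n) * x)
    have e : x - (⌊(2:ℝ) ^ (K * n) * x⌋ : ℝ) / 2 ^ (K * n) = ((2:ℝ) ^ (K * n) * x - ⌊(2:ℝ) ^ (K * n) * x⌋) / 2 ^ (K * n) := by
      field_simp
    rw [e, abs_div, abs_of_pos hN0, one_div, inv_pow, ← one_div]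
    gcongr
    rw [abs_le]
    constructor <;> linarith
  subst h
  exact ⟨f _, f _⟩

theorem fw_add_le (φ : ℝ) (x y : Fin 2 → ℝ) (z : Fin 2 → ℝ) :
    |fw φ (fun i => x i - z i)| ≤ |fw φ (fun i => y i - z i)| + (|x 0 - y 0| + |x 1 - y 1|) := by
  have e : fw φ (fun i => x i - z i) = fw φ (fun i => y i - z i) + (Real.cos φ * (x 0 - y 0) + Real.sin φ * (x 1 - y 1)) := by
    unfold fw; ring
  rw [e]
  refine (abs_add_le _ _).trans (add_le_add le_rfl ((abs_add_le _ _).trans ?_))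
  rw [abs_mul, abs_mul]
  have h1 := Real.abs_cos_le_one φ
  have h2 := Real.abs_sin_le_one φ
  have h3 := abs_nonneg (x 0 - y 0)
  have h4 := abs_nonneg (x 1 - y 1)
  nlinarith

theorem fn_add_le (φ : ℝ) (x y : Fin 2 → ℝ) (z : Fin 2 → ℝ) :
    |fn φ (fun i => x i - z i)| ≤ |fn φ (fun i => y i - z i)| + (|x 0 - y 0| + |x 1 - y 1|) := by
  have e : fn φ (fun i => x i - z i) = fn φ (fun i => y i - z i) + (-Real.sin φ * (x 0 - y 0) + Real.cos φ * (x 1 - y 1)) := by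
    unfold fn; ring
  rw [e]
  refine (abs_add_le _ _).trans (add_le_add le_rfl ((abs_add_le _ _).trans ?_))
  rw [abs_mul, abs_mul, abs_neg]
  have h1 := Real.abs_cos_le_one φ
  have h2 := Real.abs_sin_le_one φ
  have h3 := abs_nonneg (x 0 - y 0)
  have h4 := abs_nonneg (x 1 - y 1)
  nlinarith

/-- the directions of the stereographic cells of a family of slope indices in a plank -/
theorem dir_of {K n : ℕ} {k : ℤ × ℤ} {θ : Z2} (h : sidx (2 ^ (K * n)) k = θ) {φ u1 u2 : ℝ} {s : Fin 2 → ℝ}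
    (h1 : (1/2 : ℝ) ^ (K * n) ≤ u1) (h2 : u1 ≤ u2) (hw : |fw φ (fun i => slp n K θ i - s i)| ≤ u2)
    (hn : |fn φ (fun i => slp n K θ i - s i)| ≤ u1) :
    dirP (2 ^ (K * n)) (((2 ^ (K * n) : ℕ) : ℝ) ^ 2) (-Real.sin φ) (Real.cos φ) (s 0) (s 1)
      (3 * u1 * ((2 ^ (K * n) : ℕ) : ℝ) ^ 2) (3 * u2 * ((2 ^ (K * n) : ℕ) : ℝ) ^ 2) k := by
  obtain ⟨a1, a2⟩ := sl_slp h
  have hN0 : (0:ℝ) < ((2 ^ (K * n) : ℕ) : ℝ) ^ 2 := by positivity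
  have b1 := fw_add_le φ ![sl1 (2 ^ (K * n)) k, sl2 (2 ^ (K * n)) k] (slp n K θ) s
  have b2 := fn_add_le φ ![sl1 (2 ^ (K * n)) k, sl2 (2 ^ (K * n)) k] (slp n K θ) s
  simp only [Matrix.cons_val_zero, Matrix.cons_val_one] at b1 b2
  constructor
  · rw [mul_div_assoc, div_self hN0.ne', mul_one]
    have e : -Real.sin φ * (sl1 (2 ^ (K * n)) k - s 0) + Real.cos φ * (sl2 (2 ^ (K * n)) k - s 1) =
        fn φ (fun i => (![sl1 (2 ^ (K * n)) k, sl2 (2 ^ (K * n)) k] : Fin 2 → ℝ) i - s i) := by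
      unfold fn; simp
    rw [e]
    linarith
  · rw [mul_div_assoc, div_self hN0.ne', mul_one]
    have e : -Real.cos φ * (sl1 (2 ^ (K * n)) k - s 0) + -Real.sin φ * (sl2 (2 ^ (K * n)) k - s 1) =
        -fw φ (fun i => (![sl1 (2 ^ (K * n)) k, sl2 (2 ^ (K * n)) k] : Fin 2 → ℝ) i - s i) := by
      unfold fw; simp; ring
    rw [e, abs_neg]
    linarith

end Vale.Agent.P117.AN572
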